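import Vale.Agent.P057.Torus.Main

/-! A smaller constant than Rankin and O'Bryant in the lower bound for `r_k(N)`, every `k ≥ 5`. -/

namespace Vale.Agent.Results.P057.BeatsRankinOBryantAllK

open Finset Polynomial Vale.Agent.P057

theorem result :
    ∀ k : ℕ, 5 ≤ k → ∃ n : ℕ, 3 ≤ n ∧ 2 ^ (n - 1) < k ∧ k ≤ 2 ^ n ∧
      ∃ C : ℝ,
        C = (n : ℝ) * (2 ^ (n - 1) * (Real.log (18 / 5) / 2) * ∏ i ∈ Finset.Ico 1 (n - 1), Real.log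
          ((∑ j ∈ range (((X - 1 : ℤ[X]) ^ (2 ^ i + 1) *
              (X + 1) ^ (2 ^ i + 1 - (4 * 2 ^ (n - 2) + 2 - k))).natDegree + 1),
            max (((X - 1 : ℤ[X]) ^ (2 ^ i + 1) *
              (X + 1) ^ (2 ^ i + 1 - (4 * 2 ^ (n - 2) + 2 - k))).coeff j) 0 : ℤ) : ℝ)) ^
            ((1 : ℝ) / n) ∧
        C ≤ (n : ℝ) * 2 ^ (((n : ℝ) - 1) / 2) * Real.log 2 ^ (1 - 1 / (n : ℝ)) *
          (Real.log (18 / 5) / (2 * Real.log 2)) ^ (1 / (n : ℝ)) ∧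
        (3 * 2 ^ (n - 2) + 2 ≤ k → C ≤ (n : ℝ) * 2 ^ (((n : ℝ) - 1) / 2) *
          Real.log 2 ^ (1 - 1 / (n : ℝ)) * (Real.log (18 / 5) / (2 * Real.log 2) *
            (Real.log ((3 : ℝ) * 2 ^ (2 ^ (n - 2) - 2)) / ((2 : ℝ) ^ (n - 2) * Real.log 2))) ^
            (1 / (n : ℝ))) ∧
        C < (n : ℝ) * 2 ^ (((n : ℝ) - 1) / 2) * Real.log 2 ^ (1 - 1 / (n : ℝ)) ∧
        ∀ ε : ℝ, 0 < ε → ∃ N₀ : ℕ, ∀ N : ℕ, N₀ ≤ N → ∃ A : Finset ℕ, A ⊆ Finset.Icc 1 N ∧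
          (∀ a d : ℕ, 0 < d → ∃ i < k, a + i * d ∉ A) ∧
          (N : ℝ) * Real.exp (-((C + ε) * Real.log N ^ (1 / (n : ℝ)))) ≤ A.card := by
  intro k hk
  have hex : ∃ n, k ≤ 2 ^ n := ⟨k, Nat.lt_two_pow_self.le⟩
  have hk2 : k ≤ 2 ^ Nat.find hex := Nat.find_spec hex
  have hn : 3 ≤ Nat.find hex := by
    by_contra h
    have : 2 ^ Nat.find hex ≤ 2 ^ 2 := Nat.pow_le_pow_right (by norm_num) (by omega)
    omega
  have hk1 : 2 ^ (Nat.find hex - 1) < k := Nat.lt_of_not_le (Nat.find_min hex (by omega))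
  exact ⟨_, hn, hk1, hk2, Torus.torusC _ k, rfl, Torus.torusC_le hn hk2,
    fun h => Torus.torusC_le_cascade hn h hk2, Torus.torusC_lt hn hk2,
    fun ε hε => Torus.progression_bound hn hk1 hk2 hε⟩

end Vale.Agent.Results.P057.BeatsRankinOBryantAllK
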